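import Vale.Agent.P352X.FE.Main

/-!
# P352X, block CL: Bose fields that annihilate the vacuum vanish
-/

set_option linter.all false

open scoped SchwartzMap

namespace Vale.Agent.P352X.FE

open Vale.Agent.P352 Vale.Agent.P352.H246 Vale.Agent.P352.H496 Vale.Agent.P352.H755

variable {D : Type*} [NormedAddCommGroup D] [InnerProductSpace ℂ D] {Q : GF.Theory D}

theorem bz {A : GF.Fld D} (hA : Q.bose A) (hv : ∀ f, GF.IsTest f → A f Q.vac = 0) {f : GF.Fn}
    (hf : GF.IsTest f) (v : D) : A f v = 0 := by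
  obtain ⟨B, hB, h⟩ := Q.adj A (Q.bose_fld _ hA)
  have z := van (Q := Q) (B := fun f v => B (fl f) v) (B' := fun f v => A (fl f) v)
    (fun f v w => by rw [H246.adj_symm h _ _ _ (isTest_fl f), bar_fl])
    (fun f a X X' hf hX => bose_comm hA (fun G hG => wed_sep (isLor_Rt 0 0) a hf hG) hX _)
    (fun f _ => hv _ (isTest_fl f)) (fld_cont hB)
  obtain ⟨F, rfl⟩ := exists_fl hf
  exact ext_inner_right ℂ fun w => by
    rw [h _ _ _ hf, bar_fl, z, inner_zero_left, inner_zero_right]

end Vale.Agent.P352X.FE
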