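import Vale.Agent.P352X.CL.NJ

/-!
# P352X, block CL, layer A: multiplets with a finite scaling law
-/

set_option linter.all false

namespace Vale.Agent.P352X.CA.G.NJ

open Vale.Agent.P352 Vale.Agent.P352.GF
open MUL CL Finset

variable {W H : Type*} [AddCommGroup W] [Module ℂ W] [NormedAddCommGroup H]
  [InnerProductSpace ℂ H] {A : Dat W H} {k : Rp} {y : Fin k.n → W} {Λ : Finset ℂ} {m : ℕ}
  {v : Fin k.n → ℂ × ℕ → W}

theorem lzv (g : A.Gp) (ly : A.Lz k y) {G : Finset (ℂ × ℕ)}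
    (h : ∀ μ (s : ℝ), A.al (Real.exp s) GF.one (y μ) = ∑ p ∈ G, ph p s • v μ p) :
    ∀ p ∈ G, A.Lz k (v · p) := fun p hp L μ hL => by
  refine uq (w := fun p => tl k L (fun ν => A.al 1 L (v ν p)) μ) (fun s => ?_) p hp
  have e : ∀ ν, A.al (Real.exp s) GF.one (A.al 1 L (y ν)) =
      ∑ p ∈ G, ph p s • A.al 1 L (v ν p) := fun ν => by
    rw [g.l _ _ _ _ (Real.exp_pos s) one_pos hL, mul_comm, ← g.r _ _ _ _ one_pos (Real.exp_pos s) hL,
      h]
    simp only [map_sum, map_smul]
  rw [← h, ly L μ hL, ← tl_map]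
  simp only [e, tl, smul_sum, smul_comm (ph _ s)]
  exact sum_comm

theorem cv (g : A.Gp) {y : W} {v : ℂ × ℕ → W}
    (h : ∀ s : ℝ, A.al (Real.exp s) GF.one y = ∑ p ∈ Λ ×ˢ range m, ph p s • v p) (s : ℝ) :
    ∀ p ∈ Λ ×ˢ range m, A.al (Real.exp s) GF.one (v p) = Complex.exp (s * p.1) •
      ∑ j ∈ range m, ((s : ℂ) ^ (j - p.2) * (j.choose p.2 : ℂ)) • v (p.1, j) := by
  refine uq fun r => ?_
  simp only [← map_smul]
  rw [← map_sum, ← h, g.l _ _ _ _ (Real.exp_pos s) (Real.exp_pos r) isLor_one, ← Real.exp_add, h,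
    sum_product, sum_product]
  refine sum_congr rfl fun l _ => ?_
  simp only [smul_sum, smul_smul]
  rw [sum_comm]
  refine sum_congr rfl fun j hj => ?_
  rw [← sum_smul, ph, add_comm s, Complex.ofReal_add, add_pow, sum_subset (range_mono
    (mem_range.1 hj)) fun i _ hi => by
      rw [Nat.choose_eq_zero_of_lt (by simpa using hi), Nat.cast_zero, mul_zero], mul_sum]
  congr 1
  refine sum_congr rfl fun i _ => ?_
  rw [ph, add_mul, Complex.exp_add]
  ring

theorem box (t : A.Tk) (ly : A.Lz k y) {T : Submodule ℂ W} (hT : ∀ d, A.Wd d ≤ T) (m : ℕ)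
    (h : ∀ μ (s : ℝ), A.al (Real.exp s) GF.one (y μ) = ∑ p ∈ Λ ×ˢ range m, ph p s • v μ p)
    (μ : Fin k.n) : y μ ∈ T := by
  have h0 := h μ 0
  rw [Real.exp_zero, t.ax.one] at h0
  induction m with
  | zero => simp [h0]
  | succ m ih =>
    have lz := lzv t.gp ly h
    have mem : ∀ l ∈ Λ, ∀ i ≤ m, (l, i) ∈ Λ ×ˢ range (m + 1) := fun l hl i hi =>
      mem_product.2 ⟨hl, mem_range.2 (Nat.lt_succ_of_le hi)⟩
    have z : ∀ (s : ℝ) (i n : ℕ) (u : ℕ → W), n ≤ i →
        ∑ j ∈ range n, ((s : ℂ) ^ (j - i) * (j.choose i : ℂ)) • u j = 0 := fun s i n u hn =>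
      sum_eq_zero fun j hj => by
        rw [Nat.choose_eq_zero_of_lt ((mem_range.1 hj).trans_le hn), Nat.cast_zero, mul_zero,
          zero_smul]
    have top : ∀ l ∈ Λ, A.J2 (l + 4) (v · (l, m)) 0 := fun l hl s ν => by
      rw [cv t.gp (h ν) s _ (mem l hl m le_rfl), sum_range_succ, z s m m _ le_rfl]
      simp
    rcases m with _ | m
    · rw [h0]
      refine sum_mem fun p hp => T.smul_mem _ ?_
      obtain ⟨l, j⟩ := p
      obtain ⟨h1, h2⟩ := mem_product.1 hp
      obtain rfl : j = 0 := by simpa using h2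
      exact hT _ (mem_Wd (mu_of t.gp (lz _ hp) (top l h1)) μ)
    · have e : ∀ l ∈ Λ, ∀ ν, v ν (l, m + 1) = 0 := fun l hl ν => by
        have := nj t (l + 4) (z := fun ν => ((m + 1 : ℕ) : ℂ) • v ν (l, m + 1))
          (lz _ (mem l hl m m.le_succ)) (fun L ν hL => by
            simp only [map_smul, tl_smul]
            exact congrArg _ (lz _ (mem l hl _ le_rfl) L ν hL)) (fun s ν => by
            rw [cv t.gp (h ν) s _ (mem l hl m m.le_succ), sum_range_succ, sum_range_succ,
              z s m m _ le_rfl]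
            simp [smul_smul]) fun s ν => by
            rw [map_smul, top l hl s ν]
            simp only [Pi.zero_apply, smul_zero, add_zero]
            exact smul_comm _ _ _
        exact (smul_eq_zero.1 (congrFun this ν)).resolve_left (Nat.cast_ne_zero.2 m.succ_ne_zero)
      have h' : ∀ ν (s : ℝ), A.al (Real.exp s) GF.one (y ν) =
          ∑ p ∈ Λ ×ˢ range (m + 1), ph p s • v ν p := fun ν s => by
        rw [h, sum_product, sum_product]
        exact sum_congr rfl fun l hl => by rw [sum_range_succ, e l hl, smul_zero, add_zero]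
      refine ih h' ?_
      simpa only [Real.exp_zero, t.ax.one] using h' μ 0

/-- multiplets with a finite scaling law are sums of multiplets with scaling dimensions -/
theorem ja (t : A.Tk) (ly : A.Lz k y) {T : Submodule ℂ W} (hT : ∀ d, A.Wd d ≤ T)
    (h : ∀ μ, ∃ (F : Finset (ℂ × ℕ)) (v : ℂ × ℕ → W), ∀ s : ℝ,
      A.al (Real.exp s) GF.one (y μ) = ∑ p ∈ F, ph p s • v p) (μ : Fin k.n) : y μ ∈ T := by
  classical
  choose F v h using h
  let G := univ.biUnion F
  refine box t ly hT (Λ := G.image Prod.fst) (v := fun ν p => if p ∈ F ν then v ν p else 0)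
    (G.sup Prod.snd + 1) (fun ν s => ?_) μ
  refine (h ν s).trans (Eq.trans (sum_congr rfl fun p hp => by rw [if_pos hp])
    (sum_subset (s₁ := F ν) (fun p hp => ?_) fun p _ hp => by rw [if_neg hp, smul_zero]))
  have : p ∈ G := mem_biUnion.2 ⟨ν, mem_univ _, hp⟩
  exact mem_product.2 ⟨mem_image_of_mem _ this,
    mem_range.2 (Nat.lt_succ_of_le (le_sup (f := Prod.snd) this))⟩

end Vale.Agent.P352X.CA.G.NJ
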