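import Vale.Agent.P352X.CL.FL
import Vale.Agent.P352X.CL.JA
import Vale.Agent.P352X.CG.W

/-!
# P352X, block CL: multiplets with finite scaling laws consist of descendants
-/

set_option linter.all false

namespace Vale.Agent.P352X.CA.G

open Vale.Agent.P352 Vale.Agent.P352.GF Vale.Agent.P352.BW Vale.Agent.P352.H246
open Vale.Agent.P352.H496 Vale.Agent.P352.H755 Vale.Agent.P352.H15
open TPD (pS TT pS_apply)
open UniformSpace (Completion)
open CL Fss.G

noncomputable section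

theorem rx {T : Type*} [AddCommGroup T] [Module ℂ T] {W : Submodule ℂ T} {a : ℝ → W}
    {F : Finset (ℂ × ℕ)} {w : ℂ × ℕ → T} (h : ∀ t, (a t : T) = ∑ p ∈ F, pg p t • w p) :
    ∃ (G : Finset (ℂ × ℕ)) (v : ℂ × ℕ → W), ∀ t, a t = ∑ p ∈ G, ph p t • v p := by
  classical
  let G := F.image fun p => (p.1 - 4, p.2)
  have e : ∀ t, (a t : T) = ∑ q ∈ G, ph q t • ((-1 : ℂ) ^ q.2 • w (q.1 + 4, q.2)) := fun t => by
    rw [h, Finset.sum_image fun p _ q _ e => by simpa [Prod.ext_iff] using e]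
    exact Finset.sum_congr rfl fun p _ => by rw [CL.pg, smul_smul, sub_add_cancel]
  choose S c hc using vd G
  refine ⟨G, fun q => ∑ t ∈ S q, c q t • a t, fun t => Subtype.ext ((e t).trans ?_)⟩
  rw [Submodule.coe_sum]
  refine Finset.sum_congr rfl fun q hq => ?_
  simp only [Submodule.coe_smul, Submodule.coe_sum, e, CL.ext hq (hc q)]

variable {D : Type*} [NormedAddCommGroup D] [InnerProductSpace ℂ D] {c : Cx D}

theorem m1c (c : Cx D) : M1 c.Q := fun s L a s' L' a' v hs hs' hL hL' =>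
  c.mul1 a a' v hs hs' hL hL'

theorem al_al (x : Ops c) {s s' : ℝ} {L L' : Ix → V} (y : x.W) (hs : 0 < s) (hs' : 0 < s')
    (hL : IsLor L) (hL' : IsLor L') (h : L = GF.one ∨ L' = GF.one) :
    x.al s L (x.al s' L' y) = x.al (s * s') (fun m => sim 1 L 0 (L' m)) y := by
  have h1 := mul_pos hs hs'
  have h2 := ue_lor hL hL'
  refine Subtype.ext (ContinuousLinearMap.ext fun f => ?_)
  simp only [x.hal _ _ _ hs hL, x.hal _ _ _ hs' hL', x.hal _ _ _ h1 h2,
    ContinuousLinearMap.comp_apply]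
  rw [show pS s' L' (pS s L f) = pS (s * s') (fun m => sim 1 L 0 (L' m)) f from
    SchwartzMap.ext fun z => by
      rw [pS_apply hs' hL', pS_apply hs hL, pS_apply h1 h2, GDa.sim_sim]]
  refine Completion.induction_on (p := fun z => Ug c.Q s L 0 (Ug c.Q s' L' 0 z) = Ug c.Q _ _ 0 z) _
    (isClosed_eq ((Ug _ _ _ _).continuous.comp (Ug _ _ _ _).continuous) (Ug _ _ _ _).continuous)
    fun v => ?_
  rw [Ug_apply _ hs' hL', ue_coe hs' hL', Ug_apply _ hs hL, ue_coe hs hL, Ug_apply _ h1 h2,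
    ue_coe h1 h2, c.mul1 0 0 v hs hs' hL hL' h, GDa.sim0]

variable {x : Ops c} {f0 : Sch} (a : All x f0)
include a

theorem tk : (x.dat f0).Tk :=
  have r := rowsA (x.dat f0)
  have m := r.mul a.ax
  have k := r.kil a.ax
  have j := r.adj a.ax
  ⟨a.ax, ⟨fun s s' L y hs hs' hL => (al_al x y hs hs' H496.isLor_one hL (.inl rfl)).trans (by
      simp only [INI.sim_one, one_smul]; rfl),
    fun s s' L y hs hs' hL => (al_al x y hs hs' hL H496.isLor_one (.inr rfl)).trans (by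
      simp only [GF.one, N86.c1_bas]; rfl)⟩, m, k, a.out.lor, j, a.out.dil,
    r.pri a.ax j a.out.dil (r.tow a.ax m k a.out.lor a.out.dil)⟩

theorem descL (h : Tl c) (hF : FSL c.Q) (e : Bool) (k : Rp) (Φ : Fin k.n → Fld D) (μ : Fin k.n)
    (hΦ : IsMl c.Q k Φ) (h1 : ∀ a, if e then Fer c.Q c.G (Φ a) else c.Q.bose (Φ a)) :
    DescS c.Q c.G c.t e (Φ μ) := by
  classical
  have t := tw_e c e
  have R := m1c c
  set H : D → D := fun v => if e then c.G v else v with hH
  choose hf B hB hB' using fun μ => tw_cf a h e (h1 μ)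
  choose F C hC using fun ν => hF _ (hf ν)
  have h4 : ∀ ν, ∀ p : F ν, if e then Fer c.Q c.G (C ν p) else c.Q.bose (C ν p) := fun ν p => by
    have := h1 ν
    cases e
    exacts [((hC ν).1 p).2 this,
      fer (hC ν) R c.gl (fun s v hs => c.gU _ _ _ _ hs H496.isLor_one) this p.2]
  choose _ B' _ cf using fun ν p => tw_cf a h e (h4 ν p)
  -- the dilates
  have dl : ∀ ν (r : ℝ) f v, IsTest f → ∑ p : F ν, pg p r • C ν p f (H (Fss.u c.Q _
      (Real.exp_pos r) v)) = c.Q.U (Real.exp r) GF.one 0 (Φ ν (Fss.ds (Real.exp r) f) (H v)) :=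
    fun ν r f v hf => by
      rw [Finset.sum_coe_sort (F ν) fun p => pg p r • C ν p f _, ← sdl (hC ν) R r hf, Fss.dl,
        show H (Fss.u c.Q _ (Real.exp_pos r) v) = Fss.u c.Q _ (Real.exp_pos r) (H v) from
          (t.gU _ _ _ _ (Real.exp_pos r) H496.isLor_one).symm, inv_u R]
      rfl
  have ml : ∀ ν L f v, IsLor L → IsTest f → Φ ν f (H (c.Q.U 1 L 0 v)) =
      ∑ b, k.ρ L b ν • c.Q.U 1 L 0 (Φ b (fun x => f (sim 1 L 0 x)) (H v)) := fun ν L f v hL hf => by
    rw [← t.gU _ _ _ _ one_pos hL, hΦ ν L f _ hL hf]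
  choose y hy using fun ν => a.ext.vac _ _ c.Q.vac (hB' ν).l (hB' ν).jl
  have gd : ∀ ν, c.Gd _ _ (y ν) := fun ν => ⟨hB' ν, fun s L hs hL => by
    obtain ⟨z, hz⟩ := rep_row.inv k L hL
    obtain ⟨r, rfl⟩ : ∃ r, Real.exp r = s := ⟨_, Real.exp_log hs⟩
    refine ⟨_, _, a.clm.sumf _ (fun κ => z * k.ρ (linv L) κ ν) _ _ fun κ =>
      a.clm.sumf _ (fun p : F κ => pg p r) _ _ (cf κ), fun f v hf => ?_⟩
    have e : ∀ κ, ∑ b, z * k.ρ (linv L) b ν * k.ρ L κ b = if κ = ν then 1 else 0 := fun κ => by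
      rw [← Matrix.one_apply, ← hz, Matrix.mul_apply]
      exact Finset.sum_congr rfl fun ν _ => by rw [Matrix.smul_apply, smul_eq_mul, mul_comm]
    have e2 : c.Q.U (Real.exp r) L 0 = fun v => Fss.u c.Q _ hs (c.Q.U 1 L 0 v) := funext fun v => by
      rw [(U_dil R hs hL 0 v).1, smul_zero]
    have e3 : (fun x => Fss.ds (Real.exp r) f (sim 1 L 0 x)) = fun x => f (sim (Real.exp r) L 0 x) :=
      funext fun x => by
        rw [Fss.ds_apply, N86.c1_sim (Real.exp r) L 0 x, zero_add]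
    rw [e2]
    refine (Finset.sum_congr rfl fun κ _ => by
      rw [show _ = _ from dl κ r f _ hf.1, ml κ L _ v hL (Fss.ds_test hs hf.1), e3,
        show c.Q.U _ GF.one 0 _ = Fss.u c.Q _ hs _ from rfl, map_sum, Finset.smul_sum]).trans ?_
    rw [Finset.sum_comm]
    simp only [map_smul, smul_smul, ← Finset.sum_smul, e, ite_smul, one_smul, zero_smul,
      Finset.sum_ite_eq', Finset.mem_univ, if_true]
    rfl, hy ν⟩
  let Y : Fin k.n → x.W := fun ν => ⟨y ν, (x.mem _).2 ⟨_, _, gd ν⟩⟩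
  have cs : ∀ {s L} (hs : 0 < s) (hL : IsLor L) {f : Sch}, HasCompactSupport f →
      HasCompactSupport (pS s L f) := fun hs hL f hf => by
    have := (INI.cs_sim hs hL ⟨⟨f, rfl⟩, hf⟩).2
    rwa [← INI.ev_pS hs hL] at this
  refine a.desc e (hf μ) (a.dg_of (y := Y μ) (hB' μ) (gd μ).vv (NJ.ja (tk a) (y := Y)
    (fun L ν hL => Subtype.ext (a.ext.extv _ _ fun f hf => ?_)) a.out.dsc (fun ν => ?_) μ))
  · have e := ml ν L _ c.Q.vac hL ⟨f, rfl⟩
    rw [c.Q.U_vac 1 L 0 one_pos hL] at e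
    simp only [tl, Ops.dat, Submodule.coe_sum, Submodule.coe_smul, x.hal 1 L _ one_pos hL,
      ContinuousLinearMap.smul_apply, ContinuousLinearMap.sum_apply, ContinuousLinearMap.comp_apply,
      Y, hy _ _ (cs one_pos hL hf), hy _ _ hf, Ug_apply _ one_pos hL, ue_coe one_pos hL,
      INI.ev_pS one_pos hL]
    rw [show Φ ν _ _ = _ from e, ← Completion.coe_toComplL (𝕜 := ℂ)]
    simp only [map_smul, map_sum, Completion.coe_toComplL]
    rfl
  · choose w hw using fun p => a.ext.vac _ _ c.Q.vac (cf ν p).l (cf ν p).jl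
    refine rx (F := F ν) (w := fun p => if h : p ∈ F ν then w ⟨p, h⟩ else 0) fun r =>
      a.ext.extv _ _ fun f hf => ?_
    have hs := Real.exp_pos r
    have e := dl ν r _ c.Q.vac ⟨f, rfl⟩
    rw [show Fss.u c.Q _ hs c.Q.vac = _ from c.Q.U_vac _ _ 0 hs H496.isLor_one] at e
    rw [← Finset.sum_coe_sort]
    simp only [Ops.dat, x.hal _ _ _ hs H496.isLor_one, ContinuousLinearMap.smul_apply,
      ContinuousLinearMap.sum_apply, ContinuousLinearMap.comp_apply, Y,
      hy _ _ (cs hs H496.isLor_one hf), Ug_apply _ hs H496.isLor_one, ue_coe hs H496.isLor_one,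
      INI.ev_pS hs H496.isLor_one, dif_pos (Subtype.prop _), Subtype.coe_eta, hw _ _ hf]
    refine (congrArg _ e.symm).trans ?_
    rw [← Completion.coe_toComplL (𝕜 := ℂ)]
    simp only [map_smul, map_sum, Completion.coe_toComplL]
    rfl

end

end Vale.Agent.P352X.CA.G
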