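import Mathlib.Analysis.SpecialFunctions.ExpDeriv
import Mathlib.Analysis.Calculus.Deriv.Polynomial
import Mathlib.Analysis.Complex.RealDeriv
import Mathlib.LinearAlgebra.Dual.Lemmas
import Mathlib.Algebra.Polynomial.Roots

/-!
# P352X, block CL: exponential polynomials are linearly independent
-/

set_option linter.all false

open Polynomial

namespace Vale.Agent.P352X.CL

/-- the functions `exp (t l) t ^ j` -/
noncomputable def ph (p : ℂ × ℕ) (t : ℝ) : ℂ := Complex.exp (t * p.1) * (t : ℂ) ^ p.2

theorem tc_inj {c : ℂ} (hc : c ≠ 0) {p : ℂ[X]} (h : C c * p + derivative p = 0) : p = 0 := by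
  by_contra hp
  have e : derivative p = -(C c * p) := eq_neg_of_add_eq_zero_right h
  have := degree_derivative_lt hp
  rw [e, degree_neg, degree_C_mul hc] at this
  exact lt_irrefl _ this

theorem ep_zero (Λ : Finset ℂ) : ∀ p : ℂ → ℂ[X],
    (∀ t : ℝ, ∑ l ∈ Λ, Complex.exp (t * l) * (p l).eval (t : ℂ) = 0) → ∀ l ∈ Λ, p l = 0 := by
  classical
  induction Λ using Finset.induction_on with
  | empty => simp
  | insert a Λ ha ih =>
    intro p hp
    let T : ℂ → ℂ[X] → ℂ[X] := fun c q => C c * q + derivative q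
    have st : ∀ q : ℂ → ℂ[X], (∀ t : ℝ, ∑ l ∈ insert a Λ, Complex.exp (t * l) * (q l).eval (t : ℂ) = 0) →
        ∀ t : ℝ, ∑ l ∈ insert a Λ, Complex.exp (t * l) * (T (l - a) (q l)).eval (t : ℂ) = 0 :=
      fun q hq t => by
        have d := HasDerivAt.fun_sum (u := insert a Λ) fun l _ =>
          ((((hasDerivAt_id (t : ℂ)).mul_const l).cexp.fun_mul ((q l).hasDerivAt t))).comp_ofReal
        simp only [id, hq] at d
        have e := d.unique (hasDerivAt_const _ _)
        have e2 := congrArg (a * ·) (hq t)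
        simp only [Finset.mul_sum, mul_zero] at e2
        rw [← sub_zero (0 : ℂ)]
        conv_rhs => rw [← e]; arg 2; rw [e, ← e2]
        rw [← Finset.sum_sub_distrib]
        refine Finset.sum_congr rfl fun l _ => ?_
        simp only [T, eval_add, eval_mul, eval_C]
        ring
    have it : ∀ (n : ℕ) (t : ℝ), ∑ l ∈ insert a Λ,
        Complex.exp (t * l) * ((T (l - a))^[n] (p l)).eval (t : ℂ) = 0 := fun n => by
      induction n with
      | zero => exact hp
      | succ n h => simpa only [Function.iterate_succ_apply'] using st _ h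
    have T0 : T (a - a) = derivative := funext fun q => by simp [T]
    have h1 := ih _ fun t => by
      have := it ((p a).natDegree + 1) t
      rwa [Finset.sum_insert ha, T0, iterate_derivative_eq_zero (Nat.lt_succ_self _), eval_zero,
        mul_zero, zero_add] at this
    have inj : ∀ c ≠ 0, ∀ (n : ℕ) q, (T c)^[n] q = 0 → q = 0 := fun c hc n => by
      induction n with
      | zero => exact fun _ h => h
      | succ n h => exact fun q e => tc_inj hc (h _ e)
    have h2 : ∀ l ∈ Λ, p l = 0 := fun l hl =>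
      inj _ (sub_ne_zero.2 fun e : l = a => ha (e ▸ hl)) _ _ (h1 l hl)
    refine Finset.forall_mem_insert _ _ _ |>.2 ⟨?_, h2⟩
    refine eq_zero_of_infinite_isRoot _ ((Set.infinite_range_of_injective
      Complex.ofReal_injective).mono ?_)
    rintro _ ⟨t, rfl⟩
    have := hp t
    rw [Finset.sum_insert ha, Finset.sum_eq_zero fun l hl => by rw [h2 l hl, eval_zero, mul_zero],
      add_zero] at this
    exact (mul_eq_zero.1 this).resolve_left (Complex.exp_ne_zero _)

theorem li (F : Finset (ℂ × ℕ)) (c : ℂ × ℕ → ℂ) (h : ∀ t, ∑ p ∈ F, c p * ph p t = 0) :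
    ∀ p ∈ F, c p = 0 := by
  classical
  intro p hp
  have := ep_zero (F.image Prod.fst) (fun l => ∑ q ∈ F with q.1 = l, monomial q.2 (c q))
    (fun t => by
      rw [← h t, ← Finset.sum_fiberwise_of_maps_to (g := Prod.fst) (t := F.image Prod.fst)
        fun q hq => Finset.mem_image_of_mem _ hq]
      refine Finset.sum_congr rfl fun l _ => ?_
      rw [eval_finset_sum, Finset.mul_sum]
      refine Finset.sum_congr rfl fun q hq => ?_
      rw [eval_monomial, ph, (Finset.mem_filter.1 hq).2]
      ring) p.1 (Finset.mem_image_of_mem _ hp)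
  have e := congrArg (coeff · p.2) this
  simp only [finset_sum_coeff, coeff_monomial, coeff_zero] at e
  rwa [Finset.sum_eq_single p (fun q hq hne => if_neg fun e =>
    hne (Prod.ext (Finset.mem_filter.1 hq).2 e)) (fun h => absurd (by simpa using hp) h),
    if_pos rfl] at e

open Classical in
/-- the coefficients are linear combinations of values -/
theorem vd (F : Finset (ℂ × ℕ)) (e : ℂ × ℕ) : ∃ (S : Finset ℝ) (c : ℝ → ℂ), ∀ p ∈ F,
    ∑ t ∈ S, c t * ph p t = if p = e then 1 else 0 := by
  let v : ℝ → F → ℂ := fun t p => ph p t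
  have h : Submodule.span ℂ (Set.range v) = ⊤ := by
    by_contra h
    obtain ⟨φ, h0, h1⟩ := Submodule.exists_le_ker_of_lt_top _ (lt_top_iff_ne_top.2 h)
    have := li F (fun p => if h : p ∈ F then φ fun j => if ⟨p, h⟩ = j then 1 else 0 else 0)
      fun t => by
        have := h1 (Submodule.subset_span ⟨t, rfl⟩)
        rw [LinearMap.mem_ker, LinearMap.pi_apply_eq_sum_univ] at this
        rw [← Finset.sum_coe_sort F]
        refine Eq.trans ?_ this
        exact Finset.sum_congr rfl fun p _ => by rw [dif_pos p.2, mul_comm]; rfl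
    refine h0 (LinearMap.ext fun x => ?_)
    rw [LinearMap.pi_apply_eq_sum_univ φ x]
    refine Finset.sum_eq_zero fun p _ => ?_
    have := this p p.2
    rw [dif_pos p.2] at this
    rw [this, smul_zero]
  obtain ⟨c, hc⟩ := Finsupp.mem_span_range_iff_exists_finsupp.1
    (h ▸ Submodule.mem_top : (fun p : F => if (p : ℂ × ℕ) = e then (1 : ℂ) else 0) ∈ _)
  refine ⟨c.support, c, fun p hp => Eq.trans ?_ (congrFun hc ⟨p, hp⟩)⟩
  rw [Finsupp.sum, Finset.sum_apply]
  rfl

variable {W : Type*} [AddCommGroup W] [Module ℂ W]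

open Classical in
theorem ext {F : Finset (ℂ × ℕ)} {S : Finset ℝ} {c : ℝ → ℂ} {e : ℂ × ℕ} (he : e ∈ F)
    (hc : ∀ p ∈ F, ∑ t ∈ S, c t * ph p t = if p = e then 1 else 0) (v : ℂ × ℕ → W) :
    ∑ t ∈ S, c t • ∑ p ∈ F, ph p t • v p = v e := by
  simp only [Finset.smul_sum, smul_smul]
  rw [Finset.sum_comm, Finset.sum_congr rfl fun d hd => by rw [← Finset.sum_smul, hc d hd]]
  simp [he]

/-- uniqueness of the coefficients -/
theorem uq {F : Finset (ℂ × ℕ)} {v w : ℂ × ℕ → W}
    (h : ∀ t, ∑ p ∈ F, ph p t • v p = ∑ p ∈ F, ph p t • w p) : ∀ p ∈ F, v p = w p := fun p hp => by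
  obtain ⟨S, c, hc⟩ := vd F p
  rw [← ext hp hc v, ← ext hp hc w]
  simp only [h]

end Vale.Agent.P352X.CL
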