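import Vale.Agent.P352X.CL.Pub0
import Vale.Agent.P352X.CL.LI
import Vale.Agent.P352X.CG.FS

/-!
# P352X, block CL: scaling laws with logarithms
-/

set_option linter.all false

open Filter Topology
open scoped ComplexConjugate

namespace Vale.Agent.P352X.CL

open Vale.Agent.P352 Vale.Agent.P352.GF Vale.Agent.P352.H15 Vale.Agent.P352.H755
open Vale.Agent.P352.H496
open Fss hiding U_dil u_inv inv_u u_adj dl_herm dl_cov dl_cons dl_charge dl_pch
open Fss.G

noncomputable section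

/-- the coefficients of the dilates -/
def pg (p : ℂ × ℕ) (t : ℝ) : ℂ := ph (p.1 - 4, p.2) t * (-1) ^ p.2

open Classical in
theorem vg (F : Finset (ℂ × ℕ)) (e : ℂ × ℕ) : ∃ (S : Finset ℝ) (c : ℝ → ℂ), ∀ p ∈ F,
    ∑ t ∈ S, c t * pg p t = if p = e then 1 else 0 := by
  obtain ⟨S, c, hc⟩ := vd (F.image fun p => (p.1 - 4, p.2)) (e.1 - 4, e.2)
  refine ⟨S, fun t => (-1) ^ e.2 * c t, fun p hp => ?_⟩
  have := hc _ (Finset.mem_image_of_mem _ hp)
  rw [if_congr (show (p.1 - 4, p.2) = (e.1 - 4, e.2) ↔ p = e by simp [Prod.ext_iff]) rfl rfl]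
    at this
  rw [Finset.sum_congr rfl fun t _ => show (-1) ^ e.2 * c t * pg p t =
    ((-1) ^ e.2 * (-1) ^ p.2) * (c t * ph (p.1 - 4, p.2) t) by rw [pg]; ring, ← Finset.mul_sum, this]
  split_ifs with h
  · rw [h, ← mul_pow]
    simp
  · exact mul_zero _

theorem pg_add (d : ℂ) {j m : ℕ} (h : j < m) (s t : ℝ) : pg (d, j) (s + t) =
    ∑ i ∈ Finset.range m, (Complex.exp (s * (d - 4)) * (-s) ^ (j - i) * j.choose i) * pg (d, i) t := by
  have e : ∀ (i : ℕ) (t : ℝ), pg (d, i) t = Complex.exp (t * (d - 4)) * (-t : ℂ) ^ i := fun i t => by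
    rw [pg, ph, neg_pow (t : ℂ)]
    ring
  rw [e, Complex.ofReal_add, add_comm (s : ℂ), neg_add, add_pow, Finset.sum_subset
    (Finset.range_mono h) fun i _ hi => by
      rw [Nat.choose_eq_zero_of_lt (by simpa using hi), Nat.cast_zero, mul_zero], Finset.mul_sum]
  refine Finset.sum_congr rfl fun i _ => ?_
  rw [e, add_mul, Complex.exp_add]
  ring

theorem pg_conj (d : ℂ) (j : ℕ) (t : ℝ) : conj (pg (d, j) t) = pg (conj d, j) t := by
  simp [pg, ph, ← Complex.exp_conj, map_ofNat]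

variable {D : Type*} [NormedAddCommGroup D] [InnerProductSpace ℂ D] {Q : Theory D}
  {T : Ix → Ix → Fld D} {B : Fld D} {f g : Fn} {s : ℝ} {F : Finset (ℂ × ℕ)} {C : ℂ × ℕ → Fld D}

/-- the coefficients of the scaling law -/
def zz (s : ℝ) (p : ℂ × ℕ) : ℂ := (s : ℂ) ^ (4 - p.1) * (Real.log s : ℂ) ^ p.2

theorem key (h : Scl Q B F C) (hs : 0 < s) (hf : IsTest f) (v : D) :
    B f (u Q s hs v) = u Q s hs (∑ p ∈ F, zz s p • C p (ds s f) v) := by
  rw [map_sum]
  exact (h.2 s f v hs hf).trans (Finset.sum_congr rfl fun p _ => (map_smul (u Q s hs) _ _).symm)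

theorem sdl (h : Scl Q B F C) (R : M1 Q) (t : ℝ) (hf : IsTest f) (v : D) :
    dl Q _ (Real.exp_pos t) B f v = ∑ p ∈ F, pg p t • C p f v := by
  have hs := Real.exp_pos t
  rw [Fss.dl, key h (inv_pos.2 hs) (ds_test hs hf), u_inv R, ds_inv hs]
  refine Finset.sum_congr rfl fun p _ => ?_
  rw [zz, ← Real.exp_neg, Real.log_exp, Complex.cpow_def_of_ne_zero
    (Complex.ofReal_ne_zero.2 (Real.exp_pos _).ne'), ← Complex.ofReal_log (Real.exp_pos _).le,
    Real.log_exp, pg, ph, Complex.ofReal_neg, neg_pow (t : ℂ)]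
  congr 1
  rw [show -(t : ℂ) * (4 - p.1) = t * (p.1 - 4) by ring]
  ring

open Classical in
theorem sfm0 (h : Scl Q B F C) (R : M1 Q) {S : Finset ℝ} {c : ℝ → ℂ} {e : ℂ × ℕ}
    (hc : ∀ p ∈ F, ∑ t ∈ S, c t * pg p t = if p = e then 1 else 0) (hf : IsTest f) (v : D) :
    (if e ∈ F then C e f v else 0) = ∑ t ∈ S, c t • dl Q _ (Real.exp_pos t) B f v := by
  simp only [sdl h R _ hf, Finset.smul_sum, smul_smul]
  rw [Finset.sum_comm, Finset.sum_congr rfl fun d hd => by rw [← Finset.sum_smul, hc d hd]]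
  simp

open Classical in
/-- the components are linear combinations of dilates -/
theorem sfm (h : Scl Q B F C) (R : M1 Q) {S : Finset ℝ} {c : ℝ → ℂ} {e : ℂ × ℕ} (he : e ∈ F)
    (hc : ∀ p ∈ F, ∑ t ∈ S, c t * pg p t = if p = e then 1 else 0)
    (hf : IsTest f) (v : D) : C e f v = ∑ t ∈ S, c t • dl Q _ (Real.exp_pos t) B f v :=
  (if_pos he).symm.trans (sfm0 h R hc hf v)

theorem fer (h : Scl Q B F C) (R : M1 Q) (H : D →ₗ[ℂ] D)
    (hH : ∀ s v, 0 < s → Q.U s GF.one 0 (H v) = H (Q.U s GF.one 0 v)) (h1 : Fer Q H B)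
    {e : ℂ × ℕ} (he : e ∈ F) : Fer Q H (C e) := by
  obtain ⟨S, c, hc⟩ := vg F e
  refine ⟨(h.1 e).1, fun f v hf => ?_⟩
  rw [sfm h R he hc hf, sfm h R he hc hf, map_sum, ← Finset.sum_neg_distrib]
  refine Finset.sum_congr rfl fun t _ => ?_
  have p := Real.exp_pos t
  rw [map_smul, ← smul_neg, Fss.dl, Fss.dl]
  congr 1
  rw [show u Q _ (inv_pos.2 p) (H v) = _ from hH _ v (inv_pos.2 p), h1.2 _ _ (ds_test p hf),
    map_neg]
  exact congrArg _ (hH _ _ p)

section
variable {D' : Type*} [NormedAddCommGroup D'] [InnerProductSpace ℂ D'] {Q' : Theory D'}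
  {i : D →ₗᵢ[ℂ] D'} (h : Sect Q Q' i) (R : M1 Q) (R' : M1 Q') {B' : Fld D'}
  {F' : Finset (ℂ × ℕ)} {C' : ℂ × ℕ → Fld D'} (x : Xt i B B') (d : Scl Q B F C)
  (d' : Scl Q' B' F' C')
include h R R' x d d'

open Classical in
theorem xt0 (e : ℂ × ℕ) (hf : IsTest f) (v : D) :
    i (if e ∈ F then C e f v else 0) = if e ∈ F' then C' e f (i v) else 0 := by
  obtain ⟨S, c, hc⟩ := vg (F ∪ F') e
  rw [sfm0 d R (fun d hd => hc d (Finset.mem_union_left _ hd)) hf,
    sfm0 d' R' (fun d hd => hc d (Finset.mem_union_right _ hd)) hf, map_sum]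
  refine Finset.sum_congr rfl fun t _ => ?_
  have p := Real.exp_pos t
  rw [map_smul]
  exact congrArg _ ((h.U _ _ _ _ p H496.isLor_one).trans (congrArg _ ((x _ _ (ds_test p hf)).trans
    (congrArg _ (h.U _ _ _ _ (inv_pos.2 p) H496.isLor_one)))))

theorem xt {e : ℂ × ℕ} (he : e ∈ F) (he' : e ∈ F') : Xt i (C e) (C' e) := fun f v hf => by
  simpa only [if_pos he, if_pos he'] using xt0 h R R' x d d' e hf v

end

theorem comm (h : Scl Q B F C) (R : M1 Q) (hs : 0 < s) (hf : IsTest f) (P : D →ₗ[ℂ] D)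
    (v w : D) : inner ℂ w (u Q s hs (P (u Q s⁻¹ (inv_pos.2 hs) (B f v))) -
      B f (u Q s hs (P (u Q s⁻¹ (inv_pos.2 hs) v)))) = ∑ d ∈ F, zz s d *
      inner ℂ (u Q s⁻¹ (inv_pos.2 hs) w) (P (C d (ds s f) (u Q s⁻¹ (inv_pos.2 hs) v)) -
        C d (ds s f) (P (u Q s⁻¹ (inv_pos.2 hs) v))) := by
  conv_lhs => rw [← u_inv R hs v]
  rw [key h hs hf, key h hs hf, inv_u R, inv_u R, ← map_sub, u_adj R, map_sum,
    ← Finset.sum_sub_distrib, inner_sum]
  exact Finset.sum_congr rfl fun d _ => by rw [map_smul, ← smul_sub, inner_smul_right]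

theorem dl_dl (R : M1 Q) (s t : ℝ) (v : D) :
    dl Q _ (Real.exp_pos s) (dl Q _ (Real.exp_pos t) B) f v =
      dl Q _ (Real.exp_pos (s + t)) B f v := by
  have m : ∀ a b (ha : 0 < a) (hb : 0 < b) c (hc : 0 < c) v, c = a * b →
      u Q a ha (u Q b hb v) = u Q c hc v := fun a b ha hb c hc v e => by
    refine (R a _ 0 b _ 0 v ha hb H496.isLor_one H496.isLor_one (.inl rfl)).trans ?_
    simp only [sim_dil, zero_add, one_smul, smul_zero, ← e]
    rfl
  rw [Fss.dl, Fss.dl, Fss.dl, m _ _ _ _ _ (Real.exp_pos (s + t)) _ (Real.exp_add s t),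
    m _ _ _ _ _ (inv_pos.2 (Real.exp_pos (s + t))) _ (by rw [Real.exp_add, mul_inv_rev])]
  congr 2
  funext x
  rw [ds_apply, ds_apply, ds_apply, smul_smul, Real.exp_add]

section
variable (R : M1 Q) (hT : Stress0 Q T) (hs : 0 < s)
include R hT

theorem charge (h : Scl Q B F C) (hB : Q.fld B) {G : ℝ → Fn} (hG : IsCutoff G) (n : Ix)
    (hf : IsTest f) (hc : HasCompactSupport f) (v w : D) : Tendsto (fun r => inner ℂ w
      (dl Q s hs (T o n) (G r) (B f v) - B f (dl Q s hs (T o n) (G r) v))) atTop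
      (𝓝 (inner ℂ w ((Complex.I * eta n) • B (pd n f) v))) := by
  have hb := Q.bose_fld _ (hT.bose o n)
  have s0 : (s : ℂ) ≠ 0 := Complex.ofReal_ne_zero.2 hs.ne'
  have l := tendsto_finset_sum F fun d _ => ((hT.charge _ n _ _ (u Q s⁻¹ (inv_pos.2 hs) v)
    (u Q s⁻¹ (inv_pos.2 hs) w) (cut_ds hG hs) (h.1 d).1 (ds_test hs hf)
    (ds_cpt hs hc)).const_mul (s : ℂ)⁻¹).const_mul (zz s d)
  convert l.congr' ((isTest_cutoff hG).mono fun r hr => ?_) using 2
  · conv_lhs => rw [← u_inv R hs v, key h hs (Ap.test_pd n hf), ← map_smul, u_adj R,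
      Finset.smul_sum, inner_sum]
    refine Finset.sum_congr rfl fun d _ => ?_
    rw [ds_pd hs hf, lin1 (h.1 d).1 (ds_test hs (Ap.test_pd n hf))]
    simp only [inner_smul_right]
    field_simp
  · refine Eq.trans (Finset.sum_congr rfl fun d _ => ?_)
      (comm h R hs hf (fl hb (ds_test hs hr)) v w).symm
    rw [lin1 hb (ds_test hs hr), lin1 hb (ds_test hs hr),
      H746.fld_smul (h.1 d).1 (ds_test hs hf), ← smul_sub, inner_smul_right, inv_mul_cancel_left₀ s0]
    rfl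

theorem pch {A : (V → V) → D → D} (R' : Rep Q A) (hP : ND.PCh Q T A) (h : Scl Q B F C)
    {G : ℝ → Fn} (hG : IsCutoff G) {X : V → V}
    (hX : IsSim 0 X) (hf : IsTest f) (hc : HasCompactSupport f) (v w : D) :
    Tendsto (fun r => inner ℂ w (ND.cur (fun m n => dl Q s hs (T m n)) X (G r) (B f v) -
      B f (ND.cur (fun m n => dl Q s hs (T m n)) X (G r) v))) atTop
      (𝓝 (inner ℂ w (A X (B f v) - B f (A X v)))) := by
  have hb := fun m n => Q.bose_fld _ (hT.bose m n)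
  have s0 : (s : ℂ) ≠ 0 := Complex.ofReal_ne_zero.2 hs.ne'
  set X' : V → V := fun z => s⁻¹ • X (s • z) with hX'
  have hX1 : IsSim 0 X' := by
    obtain ⟨c, w, h1, h2⟩ := hX
    refine ⟨s⁻¹ • c, w, h1, fun z n => ?_⟩
    simp only [hX', Pi.smul_apply, h2, smul_eq_mul, mul_assoc, ← Finset.mul_sum]
    field_simp
  let P : D →ₗ[ℂ] D := ⟨⟨A X', H746.A_addv R' hX1⟩, H746.A_smulv R' hX1⟩
  have eP : ∀ z, u Q s hs (P (u Q s⁻¹ (inv_pos.2 hs) z)) = A X z := fun z => by
    refine (N86.A_conj R' hX1 hs H496.isLor_one 0 _).trans ?_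
    rw [show Q.U s GF.one 0 _ = z from u_inv R hs z]
    congr 1
    funext y
    have : H246.linv GF.one = GF.one := by
      funext m n
      fin_cases m <;> fin_cases n <;> simp [H246.linv, GF.one, bas, eta, o]
    simp only [this, sim_dil, hX', zero_add, sub_zero, one_smul, smul_inv_smul₀ hs.ne']
  have l := tendsto_finset_sum F fun d _ => (hP _ X' _ _ (u Q s⁻¹ (inv_pos.2 hs) v)
    (u Q s⁻¹ (inv_pos.2 hs) w) (cut_ds hG hs) hX1 (h.1 d).1 (ds_test hs hf)
    (ds_cpt hs hc)).const_mul (zz s d)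
  convert l.congr' ((isTest_cutoff hG).mono fun r hr => ?_) using 2
  · rw [← eP, ← eP]
    exact comm h R hs hf P v w
  · have ht : IsTest fun x => (s : ℂ) * ds s (G r) x := Ap.sw_cmul s (ds_test hs hr)
    have e : ∀ z, ND.cur (fun m n => dl Q s hs (T m n)) X (G r) z =
        u Q s hs (curL hb hX1 ht (u Q s⁻¹ (inv_pos.2 hs) z)) := fun z => by
      rw [curL_apply, ND.cur, ND.cur, map_sum]
      refine Finset.sum_congr rfl fun n _ => ?_
      rw [Fss.dl]
      congr 2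
      funext x
      simp only [ds_apply, hX', Pi.smul_apply, smul_eq_mul]
      push_cast
      field_simp
    rw [e, e, comm h R hs hf]
    simp only [curL_apply]

end

/-- **the component of dimension four of a stress tensor is a stress tensor** -/
theorem fssL (R : M1 Q) (hF : FSL Q) (hT : Stress0 Q T) (hN : NoLog Q T) : ∃ T', Q.IsStress T' ∧
    (∀ m n, ∃ F C, (4, 0) ∈ F ∧ Scl Q (T m n) F C ∧ T' m n = C (4, 0)) ∧ ∀ A, Rep Q A →
      ND.PCh Q T A → ND.PCh Q T' A ∧ ∀ t, IsImpr Q T' t → IsImpr Q T t := by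
  classical
  have hb := fun m n => Q.bose_fld _ (hT.bose m n)
  choose F C hC h4 using hN
  let F0 := Finset.univ.biUnion fun p : Ix × Ix => F p.1 p.2
  let Λ := F0.image Prod.fst ∪ F0.image fun p => conj p.1
  let M := F0.sup Prod.snd + 1
  have m0 : ∀ m n, ∀ p ∈ F m n, p.1 ∈ Λ ∧ conj p.1 ∈ Λ ∧ p.2 < M := fun m n p hp =>
    have : p ∈ F0 := Finset.mem_biUnion.2 ⟨(m, n), Finset.mem_univ _, hp⟩
    ⟨Finset.mem_union_left _ (Finset.mem_image_of_mem _ this), Finset.mem_union_right _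
      (Finset.mem_image_of_mem (fun p : ℂ × ℕ => conj p.1) this),
      Nat.lt_succ_of_le (Finset.le_sup (f := Prod.snd) this)⟩
  obtain ⟨S, c, hc0⟩ := vg (Λ ×ˢ Finset.range M) (4, 0)
  have hc1 : ∀ d ∈ Λ, ∀ j < M, ∑ t ∈ S, c t * pg (d, j) t = if (d, j) = (4, 0) then 1 else 0 :=
    fun d hd j hj => by
      convert hc0 (d, j) (Finset.mem_product.2 ⟨hd, Finset.mem_range.2 hj⟩)
  have hc : ∀ m n, ∀ p ∈ F m n, ∑ t ∈ S, c t * pg p t = if p = (4, 0) then 1 else 0 :=
    fun m n p hp => hc1 _ (m0 m n p hp).1 _ (m0 m n p hp).2.2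
  have hc' : ∀ m n, ∀ p ∈ F m n, ∑ t ∈ S, conj (c t) * pg p t = if p = (4, 0) then 1 else 0 :=
    fun m n p hp => by
      have := congrArg conj (hc1 _ (m0 m n p hp).2.1 _ (m0 m n p hp).2.2)
      simp only [map_sum, map_mul, pg_conj, Complex.conj_conj, apply_ite conj, map_one,
        map_zero] at this
      rw [this]
      refine if_congr ⟨fun h => Prod.ext ?_ (congrArg Prod.snd h :), fun h => by
        rw [h, map_ofNat]⟩ rfl rfl
      simpa [map_ofNat] using congrArg (fun p => conj p.1) h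
  have fm : ∀ a : ℝ → ℂ, (∀ m n, ∀ p ∈ F m n, ∑ t ∈ S, a t * pg p t =
      if p = (4, 0) then 1 else 0) → ∀ m n f v, IsTest f → C m n (4, 0) f v =
        ∑ t ∈ S, a t • Fss.dl Q _ (Real.exp_pos t) (T m n) f v := fun a ha m n f v hf =>
    sfm (hC m n) R ((h4 m n 0).2 rfl) (fun p hp => by convert ha m n p hp) hf v
  have c1 : ∑ t ∈ S, c t = 1 := by simpa [pg, ph] using hc o o _ ((h4 o o 0).2 rfl)
  have dim : ∀ m n s (hs : 0 < s) f v, IsTest f →
      C m n (4, 0) f (u Q s hs v) = u Q s hs (C m n (4, 0) (ds s f) v) := fun m n s hs f v hf => by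
    obtain ⟨s, rfl⟩ : ∃ t, Real.exp t = s := ⟨_, Real.exp_log hs⟩
    have e : ∀ w, dl Q _ hs (C m n (4, 0)) f w =
        ∑ t ∈ S, c t • dl Q _ (Real.exp_pos (s + t)) (T m n) f w := fun w => by
      rw [Fss.dl, fm c hc _ _ _ _ (ds_test hs hf), map_sum]
      exact Finset.sum_congr rfl fun t _ => by rw [map_smul, ← dl_dl R]; rfl
    have e2 := e (u Q _ hs v)
    rw [Fss.dl, inv_u R] at e2
    rw [e2]
    simp only [sdl (hC m n) R _ hf, Finset.smul_sum, smul_smul]
    rw [Finset.sum_comm, ← Finset.sum_ite_eq_of_mem' (F m n) (4, 0)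
      (fun p => C m n p f (u Q _ hs v)) ((h4 m n 0).2 rfl)]
    refine Finset.sum_congr rfl fun p hp => ?_
    obtain ⟨d, j⟩ := p
    obtain ⟨a1, -, a2⟩ := m0 m n _ hp
    simp only [← Finset.sum_smul, pg_add d a2, Finset.mul_sum, mul_left_comm (c _)]
    rw [Finset.sum_comm]
    simp only [← Finset.mul_sum]
    rw [Finset.sum_congr rfl fun i hi => by rw [hc1 d a1 i (Finset.mem_range.1 hi)]]
    by_cases hd : d = 4
    · subst hd
      obtain rfl := (h4 m n j).1 hp
      simp [a2]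
    · simp [hd]
  have lim : ∀ {B : Fld D} {f : Fn} (hB : Q.fld B) (hf : IsTest f) (P : ℝ → D → D)
      (P' : ℝ → ℝ → D → D) (v w : D) (y : ℂ),
      (∀ᶠ r in atTop, ∀ z, P r z = ∑ t ∈ S, c t • P' t r z) →
      (∀ t, Tendsto (fun r => inner ℂ w (P' t r (B f v) - B f (P' t r v))) atTop (𝓝 y)) →
      Tendsto (fun r => inner ℂ w (P r (B f v) - B f (P r v))) atTop (𝓝 y) :=
    fun hB hf P P' v w y h1 h2 => by
      have := tendsto_finset_sum S fun t _ => (h2 t).const_mul (c t)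
      rw [← Finset.sum_mul, c1, one_mul] at this
      refine this.congr' (h1.mono fun r hr => ?_)
      simp only [hr, ← fl_apply hB hf, map_sum, map_smul, ← Finset.sum_sub_distrib, ← smul_sub,
        inner_sum, inner_smul_right]
  have h1 : Q.IsStress fun m n => C m n (4, 0) := by
    refine ⟨fun m n => ((hC m n).1 _).2 (hT.bose m n), fun m n f v hf => ?_,
      fun m n f v w hf => ?_, fun m n s L a f v hs hL hf => ?_, fun n f v hf => ?_,
      fun G n B f v w hG hB hf hc' => ?_⟩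
    · simp only [fm c hc _ _ f v hf, Fss.dl, hT.symm m n _ _ (ds_test (Real.exp_pos _) hf)]
    · rw [fm c hc _ _ f v hf, fm _ hc' _ _ _ w (Ap.test_bar hf), sum_inner, inner_sum]
      exact Finset.sum_congr rfl fun t _ => by
        rw [inner_smul_left, inner_smul_right, dl_herm R hT _ m n hf]
    · have t1 := Ap.test_sim one_pos hL a hf
      let W : D →ₗ[ℂ] D := ⟨⟨Q.U 1 L a, U_add one_pos hL a⟩, U_smul one_pos hL a⟩
      have e : ∀ k l, Q.U s L a (C k l (4, 0) (fun x => f (sim s L a x)) v) =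
          W (C k l (4, 0) (fun x => f (sim 1 L a x)) (u Q s hs v)) := fun k l => by
        rw [← (U_dil R hs hL a _).2, dim k l s hs _ v t1]
        rw [show ds s (fun x => f (sim 1 L a x)) = fun x => f (sim s L a x) from funext fun x => by
          rw [ds_apply]
          simp only [N86.c1_sim _ L a, simL_smul, one_smul]]
        rfl
      simp only [e, fm c hc _ _ _ _ t1, map_sum, map_smul, Finset.smul_sum]
      rw [← (U_dil R hs hL a v).2, fm c hc _ _ f _ hf]
      simp only [dl_cov R hT _ m n hL a hf, Finset.smul_sum]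
      rw [Finset.sum_comm]
      refine Finset.sum_congr rfl fun k _ => ?_
      rw [Finset.sum_comm]
      exact Finset.sum_congr rfl fun l _ => Finset.sum_congr rfl fun t _ => smul_comm _ _ _
    · simp only [fun m => fm c hc m n _ v (Ap.test_pd m hf)]
      rw [Finset.sum_comm]
      simp only [← Finset.smul_sum, dl_cons R hT _ n hf, smul_zero, Finset.sum_const_zero]
    · obtain ⟨_, _, h⟩ := hF B hB
      exact lim hB hf _ (fun t r => Fss.dl Q _ (Real.exp_pos t) (T o n) (G r)) v w _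
        ((isTest_cutoff hG).mono fun r hr z => fm c hc o n _ z hr) fun t =>
          charge R hT _ h hB hG n hf hc' v w
  refine ⟨_, h1, fun m n => ⟨F m n, C m n, (h4 m n 0).2 rfl, hC m n, rfl⟩, fun A R' hP => ?_⟩
  have h2 : ND.PCh Q (fun m n => C m n (4, 0)) A := fun G X B f v w hG hX hB hf hc' => by
    obtain ⟨_, _, h⟩ := hF B hB
    refine lim hB hf _ (fun t r => ND.cur (fun m n => Fss.dl Q _ (Real.exp_pos t) (T m n)) X (G r))
      v w _ ((isTest_cutoff hG).mono fun r hr z => ?_) fun t => pch R hT _ R' hP h hG hX hf hc' v w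
    simp only [ND.cur, fun n => fm c hc o n _ z (test_sim0 hX hr n), Finset.smul_sum]
    exact Finset.sum_comm
  exact ⟨h2, fun t => impr hT hP h1 h2⟩

end

end Vale.Agent.P352X.CL
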