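import Vale.Agent.P352X.CL.LI
import Vale.Agent.P352X.CG.ADJ
import Vale.Agent.P352X.CG.MUL
import Vale.Agent.P352X.CG.UNI
import Vale.Agent.P352X.CG.KIL

/-!
# P352X, block CL, layer A: there are no Jordan blocks
-/

set_option linter.all false

open scoped ComplexConjugate

namespace Vale.Agent.P352X.CA.G

open Vale.Agent.P352 Vale.Agent.P352.GF
open Complex (I)
open ADJ MUL CL

variable {W H : Type*} [AddCommGroup W] [Module ℂ W] [NormedAddCommGroup H]
  [InnerProductSpace ℂ H] (A : Dat W H)

namespace Dat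

/-- the group law for dilations -/
structure Gp : Prop where
  l : ∀ s s' L y, 0 < s → 0 < s' → IsLor L → A.al s GF.one (A.al s' L y) = A.al (s * s') L y
  r : ∀ s s' L y, 0 < s → 0 < s' → IsLor L → A.al s L (A.al s' GF.one y) = A.al (s * s') L y

/-- Lorentz multiplets -/
def Lz (k : Rp) (y : Fin k.n → W) : Prop := ∀ L μ, IsLor L →
  y μ = tl k L (fun ν => A.al 1 L (y ν)) μ

/-- Jordan blocks of length two -/
def J2 {n : ℕ} (d : ℂ) (y z : Fin n → W) : Prop := ∀ (t : ℝ) μ,
  A.al (Real.exp t) GF.one (y μ) = Complex.exp (t * (d - 4)) • (y μ + (t : ℂ) • z μ)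

/-- the tools -/
structure Tk : Prop where
  ax : A.Ax
  gp : A.Gp
  mul : A.MUL
  kil : A.KIL
  lor : A.LOR
  adj : A.ADJ
  dil : A.DIL
  pri : A.PRI

end Dat

variable {A}

namespace NJ

theorem mu_of (g : A.Gp) {k : Rp} {d : ℂ} {y : Fin k.n → W} (h : A.Lz k y) (j : A.J2 d y 0) :
    A.Mu k d y := fun s L μ hs hL => by
  have e : (fun ν => A.al s L (y ν)) = fun ν => A.al s GF.one (A.al 1 L (y ν)) :=
    funext fun ν => by rw [g.l _ _ _ _ hs one_pos hL, mul_one]
  have := j (Real.log s) μ
  rw [Real.exp_log hs] at this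
  rw [e, tl_map, ← h L μ hL, this, Pi.zero_apply, smul_zero, add_zero, smul_smul,
    Complex.cpow_def_of_ne_zero (Complex.ofReal_ne_zero.2 hs.ne'), ← Complex.ofReal_log hs.le,
    ← Complex.exp_add, show (Real.log s : ℂ) * (4 - d) + Real.log s * (d - 4) = 0 by ring,
    Complex.exp_zero, one_smul]

theorem lz_K (h : A.Ax) {k : Rp} {y : Fin k.n → W} (l : A.Lz k y) :
    A.Lz (up k) (cons k A.K y) := fun L ν hL => by
  rw [tl_cons h.Klin (h.mat.inv L hL).2 _ 1 fun n y => by
    rw [← one_smul ℝ (L n), ← sim_bas, h.alK 1 L _ _ one_pos hL, Complex.ofReal_one, one_smul,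
      one_smul], one_smul, cons, cons, ← l L _ hL]

theorem j2_K (h : A.Ax) {k : Rp} {d : ℂ} {y z : Fin k.n → W} (j : A.J2 d y z) :
    A.J2 (d - 1) (cons k A.K y) (cons k A.K z) := fun t ν => by
  have p := Real.exp_pos t
  have e := h.alK _ GF.one (bas (i1 ν) 1) (y (i2 ν)) p isLor_one
  rw [sim_bas, one_smul, j, show GF.one (i1 ν) = bas (i1 ν) 1 from rfl] at e
  have e2 : Complex.exp (t * (d - 1 - 4)) = (Real.exp t : ℂ)⁻¹ * Complex.exp (t * (d - 4)) := by
    rw [Complex.ofReal_exp, ← Complex.exp_neg, ← Complex.exp_add]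
    congr 1
    ring
  rw [cons, map_smul, ← inv_smul_smul₀ (Complex.ofReal_ne_zero.2 p.ne') (A.al _ _ _), ← e, e2]
  simp only [cons, map_smul, map_add, smul_add, smul_smul]
  congr 2 <;> ring

/-- primaries are orthogonal to the elements of lower dimension -/
theorem ort (t : A.Tk) {c : ℂ} {q : W} (hq : A.S q = (c.re : ℂ) • q) (hp : A.Pm q) (e : ℂ)
    (he : e.re < c.re) : A.Wd e ≤ UNI.ort A q := by
  obtain ⟨n, hn⟩ := exists_nat_gt e.re
  induction n generalizing e with
  | zero => exact (t.kil.neg e (by simpa using hn)).le.trans bot_le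
  | succ n ih =>
    intro z hz
    push_cast at hn
    obtain ⟨r, hr, hr', hz⟩ := t.pri e z hz
    have h2 := UNI.ds A t.ax t.mul t.lor t.adj hp (ih (e - 1) (by simp; linarith) (by simp; linarith))
      (ih (e - 1 - 1) (by simp; linarith) (by simp; linarith)) hz
    have h3 := t.adj.S q r hp hr'
    rw [hq, t.dil e r hr] at h3
    simp only [Dat.ii, map_smul, inner_smul_left, inner_smul_right, Complex.conj_ofReal] at h3
    have h4 : r ∈ UNI.ort A q := (mul_eq_mul_right_iff.1 h3).resolve_left
      fun e => he.ne' (by exact_mod_cast e)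
    simpa using (UNI.ort A q).add_mem h2 h4

theorem qa (h : A.Ax) {d : ℂ} {y z u : W}
    (hy : ∀ t : ℝ, A.al (Real.exp t) GF.one y = Complex.exp (t * (d - 4)) • (y + (t : ℂ) • z))
    (hu : ∀ t : ℝ, A.al (Real.exp t) GF.one u = Complex.exp (t * (d - 4)) • u) :
    A.ii (A.S y) u + A.ii y (A.S u) = 2 * d.re * A.ii y u + A.ii z u := by
  have d1 := h.der Real.exp (fun _ => GF.one) 1 0 y u Real.exp_zero rfl
    (fun e => ⟨Real.exp_pos e, isLor_one⟩) (fun m n => by simp)
    (by simpa using Real.hasDerivAt_exp 0) fun m n => hasDerivAt_const _ _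
  have i := (hasDerivAt_id (0 : ℝ)).ofReal_comp
  have d2 := (i.mul_const (conj d + d - 8)).cexp.fun_mul ((i.mul_const (A.ii z u)).const_add
    (A.ii y u))
  have e := d1.unique (d2.congr_of_eventuallyEq (.of_forall fun t => by
    simp only [hy, hu, ml, mr, dl, id, ← Complex.exp_conj, map_mul, map_sub, Complex.conj_ofReal,
      map_ofNat, ← mul_assoc, ← Complex.exp_add]
    congr 2
    ring))
  have m := h.hS y u
  simp only [LinearMap.sub_apply, LinearMap.smul_apply, sl, sr, ml, mr, one_smul,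
    Pi.zero_apply, add_zero, Complex.ofReal_zero, Complex.ofReal_one, zero_mul, Complex.exp_zero,
    mul_one, one_mul, map_ofNat, id] at e m
  linear_combination e + m + A.ii y u * Complex.add_conj d + A.ii y u * Complex.ofReal_mul 2 d.re
    + A.ii y u * d.re * Complex.ofReal_ofNat 2

/-- **no Jordan blocks** -/
theorem nj (t : A.Tk) (d : ℂ) {k : Rp} {y z : Fin k.n → W} (ly : A.Lz k y) (lz : A.Lz k z)
    (j : A.J2 d y z) (jz : A.J2 d z 0) : z = 0 := by
  have h := t.ax
  obtain ⟨n, hn⟩ := exists_nat_gt d.re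
  induction n generalizing d k with
  | zero =>
    funext μ
    simpa [t.kil.neg d (by simpa using hn)] using mem_Wd (mu_of t.gp lz jz) μ
  | succ n ih =>
    push_cast at hn
    have c0 : cons k A.K (0 : Fin k.n → W) = 0 := funext fun ν => by simp [cons]
    have z1 := ih (d - 1) (lz_K h ly) (lz_K h lz) (j2_K h j) (c0 ▸ j2_K h jz) (by simp; linarith)
    have my := mu_of t.gp (lz_K h ly) (z1 ▸ j2_K h j)
    have mz := mu_of t.gp lz jz
    funext μ
    have hz := t.dil d _ (mem_Wd mz μ)
    have pz : A.Pm (z μ) := fun b => by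
      rw [t.mul.Ke]
      exact Finset.sum_eq_zero fun m _ => by
        rw [cons_cons, z1]
        exact (congrArg _ (smul_zero _)).trans (smul_zero _)
    have ky : A.K e0 (y μ) ∈ A.Wd (d - 1) := by
      rw [t.mul.Ke]
      exact sum_mem fun m _ => Submodule.smul_mem _ _
        (cons_cons A.K y m μ ▸ Submodule.smul_mem _ _ (mem_Wd my _))
    have mq : A.Mu k d fun μ => A.S (y μ) - (d.re : ℂ) • y μ - z μ := by
      refine mu_of t.gp (fun L ν hL => ?_) fun s ν => ?_
      · have a := ly L ν hL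
        have b := lz L ν hL
        have c := congrArg A.S a
        simp only [tl, map_sub, map_smul, map_sum, h.alS 1 L _ one_pos hL, smul_sub,
          Finset.sum_sub_distrib, smul_comm _ (d.re : ℂ), ← Finset.smul_sum] at a b c ⊢
        rw [← a, ← b, ← c]
      · simp only [map_sub, map_smul, ← h.alS _ _ _ (Real.exp_pos s) isLor_one, j s ν, jz s ν,
          map_add, t.dil d _ (mem_Wd mz ν), Pi.zero_apply]
        module
    have q0 : A.S (y μ) - (d.re : ℂ) • y μ - z μ = 0 := by
      have hu := mem_Wd mq μ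
      have := qa h (j · μ) (u := A.S (y μ) - (d.re : ℂ) • y μ - z μ) fun s => by
        simp only [map_sub, map_smul, ← h.alS _ _ _ (Real.exp_pos s) isLor_one, j s μ, jz s μ,
          map_add, hz, Pi.zero_apply]
        module
      rw [t.dil d _ hu, mr] at this
      refine t.adj.pos _ ?_
      rw [sl, sl, ml, Complex.conj_ofReal]
      linear_combination this
    have sy : A.S (y μ) = (d.re : ℂ) • y μ + z μ := by
      rw [← sub_eq_zero, ← q0]
      abel
    have o1 := (UNI.mem A).1 (ort t hz pz (d - 1) (by simp) ky)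
    have a := aK h e0 (z μ) (y μ)
    have e1 : wd e0 e0 = 0 := by
      funext m n
      simp [wd]
    have e2 : e0 o = 1 := by simp [e0, bas]
    have e3 : th e0 = e0 := by rw [th, e2, mul_one, two_smul, add_sub_cancel_right]
    have b := aS h (z μ) (y μ)
    simp only [pz e0, e1, e2, e3, M0 h, zl, sr, nr, mr, zr, Complex.ofReal_one, o1, sy, ar, hz, ml,
      Complex.conj_ofReal] at a b
    refine t.adj.pos _ ?_
    linear_combination -b - I / 2 * a + 2 * (d.re * A.ii (z μ) (y μ) + A.ii (z μ) (z μ)) *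
      Complex.I_mul_I

end NJ

end Vale.Agent.P352X.CA.G
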