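import Vale.Agent.P352X.CL.Pub0
import Vale.Agent.P352X.CG.Pub
import Vale.Agent.P352.N86.FormDefs

namespace Vale.Agent.P352X.L

open P352 GF BW H246 H496 H755
open UniformSpace (Completion)

variable {D : Type*} [NormedAddCommGroup D] [InnerProductSpace ℂ D]

/-- A covariant tensor multiplet of tempered distributions with values in the Hilbert space, of rank
`k` and scaling dimension `d`. -/
structure Mult (Q : Theory D) (k : ℕ) (d : ℝ) (φ : (Fin k → Ix) → Fn → Completion D) : Prop where
  lin : ∀ μ (f g : Fn) (c : ℂ), IsTest f → IsTest g →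
    φ μ (fun x => f x + c * g x) = φ μ f + c • φ μ g
  cont : ∀ μ, Continuous fun g => φ μ (ev g)
  cov : ∀ μ s L a f, 0 < s → IsLor L → IsTest f → φ μ f = ∑ ν : Fin k → Ix,
    ((s ^ (4 - d) * ∏ i, L (ν i) (μ i) : ℝ) : ℂ) • Ue Q s L a (φ ν fun x => f (sim s L a x))

/-- **Field reconstruction.** Every covariant multiplet that is weakly local relative to the fields
is generated from the vacuum by local fields of the theory. -/
def Rec (Q : Theory D) : Prop :=
  ∀ k d φ, Mult Q k d φ → (∀ μ, N86.WeakLoc Q (φ μ)) → ∃ Φ : (Fin k → Ix) → Fld D,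
    ∀ μ, Q.bose (Φ μ) ∧ ∀ f, IsTest f → ((Φ μ f Q.vac : D) : Completion D) = φ μ f

/-- **Conformal invariance.** `J` is a virial current for `T`, and `t = T + (∂J - η ∂·J) / 3` is a
traceless improvement of `T` whose charges act by the infinitesimal conformal transformations. If
all fields have finite scaling laws (logarithms are allowed), then all multiplets of Bose or Fermi
fields with a spin consist of descendants of conformal primaries. -/
structure CInv (Q : Theory D) (G : D → D) (T : Ix → Ix → Fld D) (J : Ix → Fld D) : Prop where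
  vir : IsVirial Q T J
  impr : IsImpr Q T (improveJ T J)
  act : ConfAct Q (improveJ T J)
  cfs : CFS Q G (improveJ T J)
  desc : FSL Q → ∀ (e : Bool) k (Φ : Fin k.n → Fld D) a, IsMl Q k Φ →
    (∀ a, if e then Fer Q G (Φ a) else Q.bose (Φ a)) → DescS Q G (improveJ T J) e (Φ a)

end Vale.Agent.P352X.L
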