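import Vale.Agent.P352.BW.Md

namespace Vale.Agent.P352X

open P352 GF BW

variable {D : Type*} [NormedAddCommGroup D] [InnerProductSpace ℂ D]

/-- The vacuum is the only translation invariant vector. -/
def L.UVac (Q : Theory D) : Prop :=
  ∀ z, (∀ a, Ue Q 1 one a z = z) → ∃ c : ℂ, z = c • om Q

/-- **Scaling laws with logarithms.** The dilates of the field `A` are the sums over `(d, j)` in `F`
of `s ^ (4 - d) (log s) ^ j` times fields `B (d, j)`. -/
def Scl (Q : Theory D) (A : Fld D) (F : Finset (ℂ × ℕ)) (B : ℂ × ℕ → Fld D) : Prop :=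
  (∀ p, Q.fld (B p) ∧ (Q.bose A → Q.bose (B p))) ∧ ∀ (s : ℝ) f v, 0 < s → IsTest f →
    A f (Q.U s one 0 v) = ∑ p ∈ F, ((s : ℂ) ^ (4 - p.1) * (Real.log s : ℂ) ^ p.2) •
      Q.U s one 0 (B p (fun x => f (sim s one 0 x)) v)

/-- Every field has a finite scaling law: the fields are sums of generalized eigenvectors of the
dilations, Jordan blocks are allowed. -/
def FSL (Q : Theory D) : Prop := ∀ A, Q.fld A → ∃ F B, Scl Q A F B

/-- In dimension four the scaling law of `T` has no logarithms. -/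
def NoLog (Q : Theory D) (T : Ix → Ix → Fld D) : Prop :=
  ∀ m n, ∃ F B, Scl Q (T m n) F B ∧ ∀ j, ((4 : ℂ), j) ∈ F ↔ j = 0

end Vale.Agent.P352X
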