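import Vale.Agent.P352X.CL.FL

/-!
# P352X, block CL: finite scaling support is the case without logarithms
-/

set_option linter.all false

namespace Vale.Agent.P352X.CL

open Vale.Agent.P352 Vale.Agent.P352.GF

variable {D : Type*} [NormedAddCommGroup D] [InnerProductSpace ℂ D] {Q : Theory D}

theorem scl_of (h : FSS Q) {A : Fld D} (hA : Q.fld A) :
    ∃ F B, Scl Q A F B ∧ ∀ j, ((4 : ℂ), j) ∈ F ↔ j = 0 := by
  classical
  obtain ⟨F, B, h1, h2⟩ := h A hA
  refine ⟨(insert 4 F).image (·, 0), fun p => B p.1, ⟨fun p => ⟨(h1 _).1, (h1 _).2.1⟩,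
    fun s f v hs hf => ?_⟩, fun j => by simp [eq_comm]⟩
  rw [Finset.sum_image fun a _ b _ e => congrArg Prod.fst e, h2 f _ hf,
    Finset.sum_subset (Finset.subset_insert 4 F) fun d _ hd => by rw [(h1 d).2.2.2 hd]; rfl]
  exact Finset.sum_congr rfl fun d _ => by rw [(h1 d).2.2.1 s f v hs hf, pow_zero, mul_one]

theorem fsl_of (h : FSS Q) : FSL Q := fun A hA => let ⟨F, B, e, _⟩ := scl_of h hA; ⟨F, B, e⟩

theorem nolog_of (h : FSS Q) {T : Ix → Ix → Fld D} (hT : Stress0 Q T) : NoLog Q T :=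
  fun m n => scl_of h (Q.bose_fld _ (hT.bose m n))

end Vale.Agent.P352X.CL
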