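import Vale.Agent.P352X.CL.DS
import Vale.Agent.P352X.CL.BZ
import Vale.Agent.P352X.CL.Pub

/-!
# P352X, block CL: from the standing assumptions to the context
-/

set_option linter.all false

namespace Vale.Agent.P352X.CA.G.LG

open Vale.Agent.P352 Vale.Agent.P352.GF Vale.Agent.P352.BW Vale.Agent.P352.H246
open Vale.Agent.P352.H496 Vale.Agent.P352.H755 Vale.Agent.P352.H15
open CL Fss.G
open UniformSpace (Completion)

noncomputable section

variable {D : Type*} [NormedAddCommGroup D] [InnerProductSpace ℂ D]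

theorem conf_of (c : Cx D) (h : Tl c) {T : Ix → Ix → Fld D} {J : Ix → Fld D}
    (e : c.t = improveJ T J) (hJ : IsVirial c.Q T J) (hI : IsImpr c.Q T (improveJ T J)) :
    L.CInv c.Q c.G T J := by
  obtain ⟨x, f0, a⟩ := all_thm c
  exact ⟨hJ, hI, e ▸ conf_act c.hT, e ▸ cfs' a h, e ▸ descL a h⟩

/-- the trivial grading -/
theorem conf_id {Q : Theory D} {T : Ix → Ix → Fld D} {J : Ix → Fld D} (hT : Q.IsStress T)
    (hJ : IsVirial Q T J) (hI : IsImpr Q T (improveJ T J)) (g : GM Q) : L.CInv Q id T J := by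
  let c : Cx D := ⟨Q, _, id, isT_of_impr hI hT,
    fun m n k l f g v hf hg h => sub_eq_zero.1 (hI.self m n k l f g v hf hg h), hI.cov,
    ⟨_, hT.bose o o⟩, fun _ => rfl, fun _ _ => rfl, fun _ _ _ _ _ => rfl, fun _ _ _ _ _ _ => rfl,
    fun C hC => ⟨1, fun _ => 1, fun _ => C, fun _ => hC, fun g v _ => by simp⟩,
    fun s L a s' L' a' hs hs' hL hL' => .inl fun v => g.mul s L a s' L' a' v hs hs' hL hL',
    fun F w _ => g.mix w _⟩
  refine conf_of c (fun A B hA hB h => ?_) rfl hJ hI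
  have e1 : ∀ f v, IsTest f → A f v = 0 := fun f v hf =>
    (smul_eq_zero.1 ((two_smul ℂ _).trans (add_eq_zero_iff_eq_neg.2 (hA.2 f v hf)))).resolve_left
      two_ne_zero
  have e2 : ∀ f v, IsTest f → B f v = 0 := fun f v hf => ext_inner_right ℂ fun w => by
    rw [H755.adj_symm h f v w hf, e1 _ _ (isTest_bar hf), inner_zero_left, inner_zero_right]
  have z := (clm_row c).zero
  exact ⟨(clm_row c).cg 0 0 _ _ z.toC0 (fun f v hf => e1 f v hf.1) fun f v hf => e2 f v hf.1,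
    fun y f v hf => Q.transl A y f v hA.1 hf.1, fun y f v hf => Q.transl B y f v hB hf.1⟩

variable {D' : Type*} [NormedAddCommGroup D'] [InnerProductSpace ℂ D'] {Q : Theory D}
  {Q' : Theory D'} {i : D →ₗᵢ[ℂ] D'} {A : (V → V) → D → D}

/-- theories with fermions -/
theorem conf_gr (h : Sect Q Q' i) (R : Rep Q A) (m : MixC Q) {G : D' → D'} (g : Gr Q' G)
    {T : Ix → Ix → Fld D} {T' : Ix → Ix → Fld D'} (hT : Q'.IsStress T')
    (hx : ∀ m n, Xt i (T m n) (T' m n)) {J : Ix → Fld D} (hJ : IsVirial Q T J)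
    (hc : Curl J Q.vac) : ∃ J', (∀ m, Xt i (J m) (J' m)) ∧ L.CInv Q' G T' J' := by
  obtain ⟨J', h1, h2, h3, -⟩ := FE.fe h hT hx hJ hc
  let L : D' →ₗ[ℂ] D' :=
    { toFun := G
      map_add' := fun v w => ext_inner_right ℂ fun y => by simp only [g.herm, inner_add_left]
      map_smul' := fun z v => ext_inner_right ℂ fun y => by
        simp only [g.herm, inner_smul_left, RingHom.id_apply] }
  let c : Cx D' := ⟨Q', _, G, isT_of_impr h3 hT,
    fun m n k l f g v hf hg h => sub_eq_zero.1 (h3.self m n k l f g v hf hg h), h3.cov,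
    ⟨_, hT.bose o o⟩, g.inv, g.herm, fun m n f v hf => by
      show _ = L _
      simp only [improveJ, map_add, map_sub, map_smul, map_sum, g.bose _ _ v (hT.bose m n) hf,
        fun k l => g.bose _ _ v (h2.bose k) (Ap.test_pd l hf)]
      rfl, g.GU,
    fun C hC => by
      obtain ⟨C1, C2, a1, a2, e⟩ := g.split C hC
      refine ⟨2, ![1, -1], ![C1, C2], fun j => ?_, fun k v hk => ?_⟩
      · fin_cases j
        exacts [Q'.bose_fld _ a1, a2.1]
      · rw [e k _ hk, g.bose C1 k v a1 hk, a2.2 k v hk, show G _ = L _ from rfl, map_add, map_neg]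
        simp [L, g.inv],
    g.mul, fun F w hF => by
      have e : smt (improveJ T' J') F Q'.vac = i (smt (improveJ T J) F Q.vac) := by
        simp only [smt, improveJ, map_sum, map_add, map_sub, map_smul, h.vac,
          fun m n => hx m n _ Q.vac (hF m n).isTest,
          fun m n k l => h1 k _ Q.vac (Ap.test_pd l (hF m n).isTest)]
      rw [e]
      exact mix_sect h R m _ w⟩
  exact ⟨J', h1, conf_of c (fun A B => clf c g) rfl h2 h3⟩

/-- logarithms are detected in a sector -/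
theorem nolog (h : Sect Q Q' i) (R : M1 Q) (R' : M1 Q') {T : Ix → Ix → Fld D}
    {T' : Ix → Ix → Fld D'} (hT : Stress0 Q T) (hT' : Stress0 Q' T') (hF : FSL Q')
    (hx : ∀ m n, Xt i (T m n) (T' m n)) (hN : NoLog Q T) : NoLog Q' T' := fun m n => by
  classical
  obtain ⟨F, C, d, h4⟩ := hN m n
  obtain ⟨F', C', d'⟩ := hF _ (Q'.bose_fld _ (hT'.bose m n))
  have x := fun e f hf => xt0 h R R' (hx m n) d d' e (f := f) hf Q.vac
  obtain ⟨B, -, hB⟩ := Q.adj _ (d.1 (4, 0)).1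
  obtain ⟨Z, -, z, -, hz, -⟩ := h.bose _ B ((d.1 (4, 0)).2 (hT.bose m n)) hB
  have b' := fun p => (d'.1 p).2 (hT'.bose m n)
  refine ⟨insert (4, 0) (F'.filter fun p => p.1 ≠ 4), fun p => if p ∈ F' then C' p else Z,
    ⟨fun p => ?_, fun s f v hs hf => ?_⟩, fun j => by simp⟩
  · dsimp only
    split_ifs
    exacts [d'.1 p, ⟨Q'.bose_fld _ z, fun _ => z⟩]
  have u0 : ∀ {B : Fld D'} (a : ℂ), Q'.bose B → (∀ g, IsTest g → B g (i Q.vac) = 0) →
      a • Q'.U s GF.one 0 (B (fun x => f (sim s GF.one 0 x)) v) = 0 := fun a b e => by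
    rw [FE.bz b (h.vac ▸ e) (Ap.test_sim hs H496.isLor_one 0 hf)]
    exact (congrArg _ (map_zero (Fss.u Q' s hs))).trans (smul_zero a)
  refine (d'.2 s f v hs hf).trans (Eq.trans (Eq.trans (Finset.sum_congr rfl fun p hp => by
    simp only [if_pos hp]) (Finset.sum_subset (Finset.subset_insert (4, 0) F') fun p hp h0 => ?_))
    (Finset.sum_subset (Finset.insert_subset_insert _ (Finset.filter_subset _ _))
      fun p hp h0 => ?_).symm)
  · obtain rfl := (Finset.mem_insert.1 hp).resolve_right h0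
    simp only [if_neg h0]
    refine u0 _ z fun g hg => ?_
    have := x (4, 0) g hg
    rwa [if_pos ((h4 0).2 rfl), if_neg h0, hz g _ hg] at this
  · obtain ⟨a, j⟩ := p
    have h1 := (Finset.mem_insert.1 hp).resolve_left fun e => h0 (e ▸ Finset.mem_insert_self _ _)
    obtain rfl : a = 4 := not_not.1 fun k =>
      h0 (Finset.mem_insert_of_mem (Finset.mem_filter.2 ⟨h1, k⟩))
    simp only [if_pos h1]
    refine u0 _ (b' _) fun g hg => ?_
    have := x (4, j) g hg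
    rw [if_neg fun k => h0 (by rw [(h4 j).1 k]; exact Finset.mem_insert_self _ _), if_pos h1,
      map_zero] at this
    exact this.symm

theorem rec_of (h : L.Rec Q) : Rec Q := fun k d φ m => h k d φ ⟨m.lin, m.cont, m.cov⟩

variable (Q) (T : Ix → Ix → Fld D) (A) (hA : ND.PCh Q T A) (hG : TfGen Q)
  (N : Set V → VonNeumannAlgebra (Completion D)) (hN : LNm Q A N) (hU : L.UVac Q)
include hA hG hN hU

theorem final5 (hT : Q.IsStress T) (hR : L.Rec Q) : ∃ J,
    (∀ Q' : Theory D, IsEnl Q Q' → L.CInv Q' id T J) ∧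
    ∀ (Q' : Theory D') i G T',
      Sect Q Q' i → Gr Q' G → Q'.IsStress T' → (∀ m n, Xt i (T m n) (T' m n)) →
      ∃ J', (∀ m, Xt i (J m) (J' m)) ∧ L.CInv Q' G T' J' := by
  obtain ⟨J, hJ, hc⟩ := curl_thm Q A T hA hG N hN hU hT (rec_of hR)
  have m := mix_of Q T hT A hA hG N hN hU
  refine ⟨J, fun Q' hE => ?_, fun Q' i G T' h g hT' hx => conf_gr h hN.toRep m g hT' hx hJ hc⟩
  have hT' := H746.isStress_enl hE hT
  have hJ' := H731.enl_virial hE hJ
  exact conf_id hT' hJ' (H246D.impr_of_curl hT' hJ' (hE.vac ▸ hc)) ((gm_of hN.toRep m).enl hE)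

theorem final8 : (Q.IsStress T → (∃ l, IsPot Q T l ∧ ∀ ν, N86.WeakLoc Q fun f => l (pd ν f)) ∧
      (L.Rec Q → ∃ J, (∀ Q' : Theory D, IsEnl Q Q' → L.CInv Q' id T J) ∧
        ∀ (Q' : Theory D') i G T', Sect Q Q' i → Gr Q' G → Q'.IsStress T' →
          (∀ m n, Xt i (T m n) (T' m n)) → ∃ J', (∀ m, Xt i (J m) (J' m)) ∧ L.CInv Q' G T' J')) ∧
    (Stress0 Q T → FSL Q → NoLog Q T → L.Rec Q → ∃ S J, Q.IsStress S ∧
      IsImpr Q T (improveJ S J) ∧ L.CInv Q id S J ∧ ∀ (Q' : Theory D') i G T', Sect Q Q' i →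
        Gr Q' G → Stress0 Q' T' → FSL Q' → (∀ m n, Xt i (T m n) (T' m n)) → ∃ S' J',
          Q'.IsStress S' ∧ (∀ m n, Xt i (S m n) (S' m n)) ∧ (∀ m, Xt i (J m) (J' m)) ∧
            L.CInv Q' G S' J') := by
  refine ⟨fun hT => ⟨(final0 Q T hT A hA hG N hN hU).1, final5 Q A T hA hG N hN hU hT⟩,
    fun hT hF hL hR => ?_⟩
  have R := m1_rep hN.toRep
  obtain ⟨S, h1, h2, h3⟩ := fssL R hF hT hL
  obtain ⟨h4, h5⟩ := h3 A hN.toRep hA
  obtain ⟨J, h6, h7⟩ := final5 (D' := D') Q A S h4 hG N hN hU h1 hR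
  have h8 := h6 Q ⟨rfl, rfl, fun _ h => h, fun _ h => h⟩
  refine ⟨S, J, h1, h5 _ h8.impr, h8, fun Q' i G T' h g hT' hF' hx => ?_⟩
  obtain ⟨S', a1, a2, -⟩ := fssL (m1_gr g) hF' hT' (nolog h R (m1_gr g) hT hT' hF' hx hL)
  have a3 : ∀ m n, Xt i (S m n) (S' m n) := fun m n => by
    obtain ⟨F, C, b1, b2, b3⟩ := h2 m n
    obtain ⟨F', C', b4, b5, b6⟩ := a2 m n
    rw [b3, b6]
    exact xt h R (m1_gr g) (hx m n) b2 b5 b1 b4
  obtain ⟨J', a4, a5⟩ := h7 Q' i G S' h g a1 a3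
  exact ⟨S', J', a1, a3, a4, a5⟩

end

end Vale.Agent.P352X.CA.G.LG
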